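import Vale.Agent.P237.Quant.TailData.N93.tailN93N0Part0
import Vale.Agent.P237.Quant.TailData.N93.tailN93N0Part1
import Vale.Agent.P237.Quant.TailData.N93.tailN93N0Part2
import Vale.Agent.P237.Quant.TailData.N93.tailN93N0Part3
import Vale.Agent.P237.Quant.TailData.N93.tailN93N0Part4
import Vale.Agent.P237.Quant.TailData.N93.tailN93N0Part5
import Vale.Agent.P237.Quant.TailData.N93.tailN93N0Part6
import Vale.Agent.P237.Quant.TailData.N93.tailN93N0Part7
import Vale.Agent.P237.Quant.TailData.N93.tailN93N0Part8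

/-!
Tail calibration tailN93N0 in dimension 93. The check. Generated data, checked by the kernel.
-/

set_option maxRecDepth 100000
set_option linter.all false

namespace Vale.Agent.P237.Quant.TailData

open TailCert


/-- The calibration. -/
noncomputable def tailN93N0 : Cfg :=
  tailN93N0Base.withIvals (List.flatten [tailN93N0L0, tailN93N0L1, tailN93N0L2, tailN93N0L3, tailN93N0L4, tailN93N0L5, tailN93N0L6, tailN93N0L7, tailN93N0L8, tailN93N0L9, tailN93N0L10, tailN93N0L11, tailN93N0L12, tailN93N0L13, tailN93N0L14, tailN93N0L15, tailN93N0L16, tailN93N0L17, tailN93N0L18, tailN93N0L19, tailN93N0L20, tailN93N0L21, tailN93N0L22, tailN93N0L23, tailN93N0L24, tailN93N0L25, tailN93N0L26, tailN93N0L27, tailN93N0L28, tailN93N0L29, tailN93N0L30, tailN93N0L31, tailN93N0L32, tailN93N0L33])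

theorem tailN93N0_parts : [tailN93N0L0, tailN93N0L1, tailN93N0L2, tailN93N0L3, tailN93N0L4, tailN93N0L5, tailN93N0L6, tailN93N0L7, tailN93N0L8, tailN93N0L9, tailN93N0L10, tailN93N0L11, tailN93N0L12, tailN93N0L13, tailN93N0L14, tailN93N0L15, tailN93N0L16, tailN93N0L17, tailN93N0L18, tailN93N0L19, tailN93N0L20, tailN93N0L21, tailN93N0L22, tailN93N0L23, tailN93N0L24, tailN93N0L25, tailN93N0L26, tailN93N0L27, tailN93N0L28, tailN93N0L29, tailN93N0L30, tailN93N0L31, tailN93N0L32, tailN93N0L33].Forall fun l => tailN93N0Base.partUsed tailN93N0Used l = true := by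
  simp only [List.forall_cons, List.Forall]
  exact ⟨tailN93N0L0_ok, tailN93N0L1_ok, tailN93N0L2_ok, tailN93N0L3_ok, tailN93N0L4_ok, tailN93N0L5_ok, tailN93N0L6_ok, tailN93N0L7_ok, tailN93N0L8_ok, tailN93N0L9_ok, tailN93N0L10_ok, tailN93N0L11_ok, tailN93N0L12_ok, tailN93N0L13_ok, tailN93N0L14_ok, tailN93N0L15_ok, tailN93N0L16_ok, tailN93N0L17_ok, tailN93N0L18_ok, tailN93N0L19_ok, tailN93N0L20_ok, tailN93N0L21_ok, tailN93N0L22_ok, tailN93N0L23_ok, tailN93N0L24_ok, tailN93N0L25_ok, tailN93N0L26_ok, tailN93N0L27_ok, tailN93N0L28_ok, tailN93N0L29_ok, tailN93N0L30_ok, tailN93N0L31_ok, tailN93N0L32_ok, tailN93N0L33_ok⟩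

theorem tailN93N0_check : tailN93N0.check = true :=
  Cfg.check_of_parts (by decide +kernel) tailN93N0_parts

end Vale.Agent.P237.Quant.TailData
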