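import Vale.Agent.P237.Quant.TailData.N93.tailN93P0Part0
import Vale.Agent.P237.Quant.TailData.N93.tailN93P0Part1
import Vale.Agent.P237.Quant.TailData.N93.tailN93P0Part2
import Vale.Agent.P237.Quant.TailData.N93.tailN93P0Part3
import Vale.Agent.P237.Quant.TailData.N93.tailN93P0Part4
import Vale.Agent.P237.Quant.TailData.N93.tailN93P0Part5
import Vale.Agent.P237.Quant.TailData.N93.tailN93P0Part6
import Vale.Agent.P237.Quant.TailData.N93.tailN93P0Part7
import Vale.Agent.P237.Quant.TailData.N93.tailN93P0Part8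
import Vale.Agent.P237.Quant.TailData.N93.tailN93P0Part9

/-!
Tail calibration tailN93P0 in dimension 93. The check. Generated data, checked by the kernel.
-/

set_option maxRecDepth 100000
set_option linter.all false

namespace Vale.Agent.P237.Quant.TailData

open TailCert


/-- The calibration. -/
noncomputable def tailN93P0 : Cfg :=
  tailN93P0Base.withIvals (List.flatten [tailN93P0L0, tailN93P0L1, tailN93P0L2, tailN93P0L3, tailN93P0L4, tailN93P0L5, tailN93P0L6, tailN93P0L7, tailN93P0L8, tailN93P0L9, tailN93P0L10, tailN93P0L11, tailN93P0L12, tailN93P0L13, tailN93P0L14, tailN93P0L15, tailN93P0L16, tailN93P0L17, tailN93P0L18, tailN93P0L19, tailN93P0L20, tailN93P0L21, tailN93P0L22, tailN93P0L23, tailN93P0L24, tailN93P0L25, tailN93P0L26, tailN93P0L27, tailN93P0L28, tailN93P0L29, tailN93P0L30, tailN93P0L31, tailN93P0L32, tailN93P0L33, tailN93P0L34, tailN93P0L35, tailN93P0L36])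

theorem tailN93P0_parts : [tailN93P0L0, tailN93P0L1, tailN93P0L2, tailN93P0L3, tailN93P0L4, tailN93P0L5, tailN93P0L6, tailN93P0L7, tailN93P0L8, tailN93P0L9, tailN93P0L10, tailN93P0L11, tailN93P0L12, tailN93P0L13, tailN93P0L14, tailN93P0L15, tailN93P0L16, tailN93P0L17, tailN93P0L18, tailN93P0L19, tailN93P0L20, tailN93P0L21, tailN93P0L22, tailN93P0L23, tailN93P0L24, tailN93P0L25, tailN93P0L26, tailN93P0L27, tailN93P0L28, tailN93P0L29, tailN93P0L30, tailN93P0L31, tailN93P0L32, tailN93P0L33, tailN93P0L34, tailN93P0L35, tailN93P0L36].Forall fun l => tailN93P0Base.partUsed tailN93P0Used l = true := by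
  simp only [List.forall_cons, List.Forall]
  exact ⟨tailN93P0L0_ok, tailN93P0L1_ok, tailN93P0L2_ok, tailN93P0L3_ok, tailN93P0L4_ok, tailN93P0L5_ok, tailN93P0L6_ok, tailN93P0L7_ok, tailN93P0L8_ok, tailN93P0L9_ok, tailN93P0L10_ok, tailN93P0L11_ok, tailN93P0L12_ok, tailN93P0L13_ok, tailN93P0L14_ok, tailN93P0L15_ok, tailN93P0L16_ok, tailN93P0L17_ok, tailN93P0L18_ok, tailN93P0L19_ok, tailN93P0L20_ok, tailN93P0L21_ok, tailN93P0L22_ok, tailN93P0L23_ok, tailN93P0L24_ok, tailN93P0L25_ok, tailN93P0L26_ok, tailN93P0L27_ok, tailN93P0L28_ok, tailN93P0L29_ok, tailN93P0L30_ok, tailN93P0L31_ok, tailN93P0L32_ok, tailN93P0L33_ok, tailN93P0L34_ok, tailN93P0L35_ok, tailN93P0L36_ok⟩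

theorem tailN93P0_check : tailN93P0.check = true :=
  Cfg.check_of_parts (by decide +kernel) tailN93P0_parts

end Vale.Agent.P237.Quant.TailData
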