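import Vale.Agent.P237.Quant.TailData.N93.tailN93P2Part0
import Vale.Agent.P237.Quant.TailData.N93.tailN93P2Part1
import Vale.Agent.P237.Quant.TailData.N93.tailN93P2Part2
import Vale.Agent.P237.Quant.TailData.N93.tailN93P2Part3
import Vale.Agent.P237.Quant.TailData.N93.tailN93P2Part4
import Vale.Agent.P237.Quant.TailData.N93.tailN93P2Part5
import Vale.Agent.P237.Quant.TailData.N93.tailN93P2Part6

/-!
Tail calibration tailN93P2 in dimension 93. The check. Generated data, checked by the kernel.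
-/

set_option maxRecDepth 100000
set_option linter.all false

namespace Vale.Agent.P237.Quant.TailData

open TailCert


/-- The calibration. -/
noncomputable def tailN93P2 : Cfg :=
  tailN93P2Base.withIvals (List.flatten [tailN93P2L0, tailN93P2L1, tailN93P2L2, tailN93P2L3, tailN93P2L4, tailN93P2L5, tailN93P2L6, tailN93P2L7, tailN93P2L8, tailN93P2L9, tailN93P2L10, tailN93P2L11, tailN93P2L12, tailN93P2L13, tailN93P2L14, tailN93P2L15, tailN93P2L16, tailN93P2L17, tailN93P2L18, tailN93P2L19, tailN93P2L20, tailN93P2L21, tailN93P2L22, tailN93P2L23, tailN93P2L24])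

theorem tailN93P2_parts : [tailN93P2L0, tailN93P2L1, tailN93P2L2, tailN93P2L3, tailN93P2L4, tailN93P2L5, tailN93P2L6, tailN93P2L7, tailN93P2L8, tailN93P2L9, tailN93P2L10, tailN93P2L11, tailN93P2L12, tailN93P2L13, tailN93P2L14, tailN93P2L15, tailN93P2L16, tailN93P2L17, tailN93P2L18, tailN93P2L19, tailN93P2L20, tailN93P2L21, tailN93P2L22, tailN93P2L23, tailN93P2L24].Forall fun l => tailN93P2Base.partUsed tailN93P2Used l = true := by
  simp only [List.forall_cons, List.Forall]
  exact ⟨tailN93P2L0_ok, tailN93P2L1_ok, tailN93P2L2_ok, tailN93P2L3_ok, tailN93P2L4_ok, tailN93P2L5_ok, tailN93P2L6_ok, tailN93P2L7_ok, tailN93P2L8_ok, tailN93P2L9_ok, tailN93P2L10_ok, tailN93P2L11_ok, tailN93P2L12_ok, tailN93P2L13_ok, tailN93P2L14_ok, tailN93P2L15_ok, tailN93P2L16_ok, tailN93P2L17_ok, tailN93P2L18_ok, tailN93P2L19_ok, tailN93P2L20_ok, tailN93P2L21_ok, tailN93P2L22_ok, tailN93P2L23_ok, tailN93P2L24_ok⟩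

theorem tailN93P2_check : tailN93P2.check = true :=
  Cfg.check_of_parts (by decide +kernel) tailN93P2_parts

end Vale.Agent.P237.Quant.TailData
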