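import Vale.Agent.P237.Quant.TailData.N93.tailN93P3Part0
import Vale.Agent.P237.Quant.TailData.N93.tailN93P3Part1
import Vale.Agent.P237.Quant.TailData.N93.tailN93P3Part2
import Vale.Agent.P237.Quant.TailData.N93.tailN93P3Part3
import Vale.Agent.P237.Quant.TailData.N93.tailN93P3Part4
import Vale.Agent.P237.Quant.TailData.N93.tailN93P3Part5
import Vale.Agent.P237.Quant.TailData.N93.tailN93P3Part6

/-!
Tail calibration tailN93P3 in dimension 93. The check. Generated data, checked by the kernel.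
-/

set_option maxRecDepth 100000
set_option linter.all false

namespace Vale.Agent.P237.Quant.TailData

open TailCert


/-- The calibration. -/
noncomputable def tailN93P3 : Cfg :=
  tailN93P3Base.withIvals (List.flatten [tailN93P3L0, tailN93P3L1, tailN93P3L2, tailN93P3L3, tailN93P3L4, tailN93P3L5, tailN93P3L6, tailN93P3L7, tailN93P3L8, tailN93P3L9, tailN93P3L10, tailN93P3L11, tailN93P3L12, tailN93P3L13, tailN93P3L14, tailN93P3L15, tailN93P3L16, tailN93P3L17, tailN93P3L18, tailN93P3L19, tailN93P3L20, tailN93P3L21, tailN93P3L22, tailN93P3L23, tailN93P3L24, tailN93P3L25, tailN93P3L26])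

theorem tailN93P3_parts : [tailN93P3L0, tailN93P3L1, tailN93P3L2, tailN93P3L3, tailN93P3L4, tailN93P3L5, tailN93P3L6, tailN93P3L7, tailN93P3L8, tailN93P3L9, tailN93P3L10, tailN93P3L11, tailN93P3L12, tailN93P3L13, tailN93P3L14, tailN93P3L15, tailN93P3L16, tailN93P3L17, tailN93P3L18, tailN93P3L19, tailN93P3L20, tailN93P3L21, tailN93P3L22, tailN93P3L23, tailN93P3L24, tailN93P3L25, tailN93P3L26].Forall fun l => tailN93P3Base.partUsed tailN93P3Used l = true := by
  simp only [List.forall_cons, List.Forall]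
  exact ⟨tailN93P3L0_ok, tailN93P3L1_ok, tailN93P3L2_ok, tailN93P3L3_ok, tailN93P3L4_ok, tailN93P3L5_ok, tailN93P3L6_ok, tailN93P3L7_ok, tailN93P3L8_ok, tailN93P3L9_ok, tailN93P3L10_ok, tailN93P3L11_ok, tailN93P3L12_ok, tailN93P3L13_ok, tailN93P3L14_ok, tailN93P3L15_ok, tailN93P3L16_ok, tailN93P3L17_ok, tailN93P3L18_ok, tailN93P3L19_ok, tailN93P3L20_ok, tailN93P3L21_ok, tailN93P3L22_ok, tailN93P3L23_ok, tailN93P3L24_ok, tailN93P3L25_ok, tailN93P3L26_ok⟩

theorem tailN93P3_check : tailN93P3.check = true :=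
  Cfg.check_of_parts (by decide +kernel) tailN93P3_parts

end Vale.Agent.P237.Quant.TailData
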